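import Vale.Agent.P015.Defs
import Vale.Agent.P015.Final
import Vale.Agent.P015.Thin

/-!
# P015, Gaussian moats: large components are exponentially rare, for every step bound

`GP` is the type of Gaussian primes, `edist` the Euclidean distance, `GD D` the graph `G_D`,
`comp D z` the vertex set of the component of `z`.  `along z₀ w z` and `away z₀ w z` are the
length coordinate and the signed distance of `z` with respect to the line through `z₀` and
`z₀ + w`.
-/

namespace Vale.Agent.Results.P015.LargeComponents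

open Vale.Agent.P015

/-- For every step bound `D`:
1. (all boxes, every rate `A`) in every square box of side `L ≥ exp (n ^ B)`, anywhere in the
   plane, at most `exp (-A n) L ^ 2` points are within `exp (A n)` of a Gaussian prime whose
   component in `G_D` has at least `n` vertices, `n ≥ n₀`;
2. the number of Gaussian primes of absolute value at most `R` in infinite components of `G_D` is
   at most `R ^ 2 exp (-(log R) ^ c)`;
3. no infinite walk through distinct Gaussian primes with steps at most `D` stays in the region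
   of half width `exp ((log (2 + |u|)) ^ c)` about a line through two Gaussian integers. -/
theorem result (D : ℝ) (hD : 0 < D) :
    (∀ A : ℝ, 0 ≤ A → ∃ B n₀ : ℕ, ∀ n : ℕ, n₀ ≤ n → ∀ L : ℕ, Real.exp ((n : ℝ) ^ B) ≤ L →
      ∀ a b : ℤ,
        (({c : GaussianInt | (a ≤ c.re ∧ c.re < a + L) ∧ (b ≤ c.im ∧ c.im < b + L) ∧
          ∃ z : GP, edist z.1 c ≤ Real.exp (A * n) ∧ (n : ℕ∞) ≤ (comp D z).encard}).ncard : ℝ) ≤
          Real.exp (-(A * n)) * (L : ℝ) ^ 2) ∧
    (∃ c : ℝ, 0 < c ∧ ∃ R₀ : ℝ, ∀ R : ℝ, R₀ ≤ R →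
      (({z : GP | ‖GaussianInt.toComplex z.1‖ ≤ R ∧ (comp D z).Infinite}).ncard : ℝ) ≤
        R ^ 2 * Real.exp (-(Real.log R) ^ c)) ∧
    (∃ c : ℝ, 0 < c ∧ ∀ z₀ w : GaussianInt, w ≠ 0 →
      ¬ ∃ f : ℕ → GP, Function.Injective f ∧ (∀ i, edist (f (i + 1)).1 (f i).1 ≤ D) ∧
        ∀ i, |away z₀ w (f i).1| ≤ Real.exp ((Real.log (2 + |along z₀ w (f i).1|)) ^ c)) := by
  refine ⟨fun A hA => ?_, infinite_count hD.le, no_path hD.le⟩
  obtain ⟨B, n₀, _, h⟩ := box_count hD.le hA
  exact ⟨B, n₀, h⟩

end Vale.Agent.Results.P015.LargeComponents
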